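import Vale.Agent.P195.Bdl.B3

/-!
# P195: the Auslander–Reiten conjecture is false

For every field `K` of characteristic zero there are a finite-dimensional `K`-algebra `A` and a
finitely generated non-projective `A`-module `M` with `Ext^i(M, M) = 0 = Ext^i(M, A)` for all
`i ≥ 1`.
-/

universe u

theorem Vale.Agent.Results.P195.Disproof.result (K : Type u) [Field K] [CharZero K] :
    ∃ (A : Type u) (_ : Ring A) (_ : Algebra K A) (M : Type u) (_ : AddCommGroup M)
      (_ : Module A M), Module.Finite K A ∧ Module.Finite A M ∧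
        (∀ i : ℕ, 1 ≤ i →
          Subsingleton (CategoryTheory.Abelian.Ext (ModuleCat.of A M) (ModuleCat.of A M) i) ∧
          Subsingleton (CategoryTheory.Abelian.Ext (ModuleCat.of A M) (ModuleCat.of A A) i)) ∧
        ¬ Module.Projective A M := by
  obtain ⟨A, r, a, M, g, m, h1, h2, h3, h4, h5⟩ := Vale.Agent.P195.Van.main K
  exact ⟨A, r, a, M, g, m, h1, h2, fun i hi => ⟨h4 i hi, h5 i hi⟩, h3⟩
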